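import Vale.Agent.P047.Cubes
import Vale.Agent.P047.Upper
import Vale.Agent.P047.Lower

/-!
# P047: dichotomy for the Gopalan-Servedio question, and new bounds for `M(d)`
-/

namespace Vale.Agent.Results.P047.Bounds

open Vale.Agent.P047

theorem weak_iff_strong :
    (∃ C : ℝ, ∀ d : ℕ, 1 ≤ d → M d ≤ C * √(d : ℝ)) ↔ (∀ d : ℕ, Odd d → M d ≤ √(d : ℝ)) := by
  constructor
  · rintro ⟨C, hC⟩ d hd
    by_contra hcon
    push Not at hcon
    obtain ⟨ε, hε, c, hc, h⟩ := dichotomy hd hcon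
    -- `c d^{1/2+ε} ≤ C √d` for all `d` is impossible
    have h1 : ∀ n : ℕ, 1 ≤ n → (n : ℝ) ^ ε ≤ C / c := by
      intro n hn
      have hn0 : (0 : ℝ) < n := by exact_mod_cast hn
      have h2 := (h n hn).trans (hC n hn)
      rw [Real.rpow_add hn0, ← Real.sqrt_eq_rpow] at h2
      have hs : 0 < √(n : ℝ) := Real.sqrt_pos.mpr hn0
      rw [le_div_iff₀ hc]
      have h3 : (n : ℝ) ^ ε * c * √(n : ℝ) ≤ C * √(n : ℝ) := by
        calc (n : ℝ) ^ ε * c * √(n : ℝ) = c * (√(n : ℝ) * (n : ℝ) ^ ε) := by ring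
          _ ≤ _ := h2
      exact le_of_mul_le_mul_right h3 hs
    have hlim : Filter.Tendsto (fun n : ℕ => (n : ℝ) ^ ε) Filter.atTop Filter.atTop :=
      (tendsto_rpow_atTop hε).comp tendsto_natCast_atTop_atTop
    obtain ⟨n, hn1, hn2⟩ := ((hlim.eventually_gt_atTop (C / c)).and (Filter.eventually_ge_atTop 1)).exists
    exact absurd (h1 n hn2) (not_le.mpr hn1)
  · intro h
    refine ⟨2, fun d hd => ?_⟩
    have hd1 : (1 : ℝ) ≤ d := by exact_mod_cast hd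
    rcases Nat.even_or_odd d with he | ho
    · have h1 := (M_mono (Nat.le_succ d)).trans (h (d + 1) he.add_one)
      refine h1.trans ?_
      have h2 : (2 : ℝ) * √(d : ℝ) = √(4 * (d : ℝ)) := by
        rw [Real.sqrt_mul (by norm_num)]
        congr 1
        rw [show (4 : ℝ) = 2 ^ 2 by norm_num, Real.sqrt_sq (by norm_num)]
      rw [h2]
      apply Real.sqrt_le_sqrt
      push_cast
      linarith
    · have := h d ho
      have hs := Real.sqrt_nonneg (d : ℝ)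
      linarith

/-- Main result on P047. -/
theorem result :
    -- supermultiplicativity
    (∀ d e : ℕ, Odd e → M d * M e ≤ M (d * e)) ∧
    -- a single violation at an odd degree forces polynomial growth
    (∀ d₀ : ℕ, Odd d₀ → √(d₀ : ℝ) < M d₀ →
      ∃ ε > 0, ∃ c > 0, ∀ d : ℕ, 1 ≤ d → c * (d : ℝ) ^ ((1 : ℝ) / 2 + ε) ≤ M d) ∧
    -- the weak form is equivalent to the strong form at odd degrees
    ((∃ C : ℝ, ∀ d : ℕ, 1 ≤ d → M d ≤ C * √(d : ℝ)) ↔ (∀ d : ℕ, Odd d → M d ≤ √(d : ℝ))) ∧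
    -- asymptotic lower bound: `liminf M(d)/√d ≥ √(11/(5π)) = √1.1 · √(2/π)`
    (17 / 8 ≤ M 5 ∧ ∀ c : ℝ, c < √(11 / (5 * Real.pi)) →
      ∀ᶠ d : ℕ in Filter.atTop, c * √(d : ℝ) ≤ M d) ∧
    -- linear upper bound with a constant below one
    ((∀ d : ℕ, Odd d → 3 ≤ d → M d ≤ 21 / 22 * d) ∧ (∀ d : ℕ, 2 ≤ d → M d ≤ 29 / 30 * d)) ∧
    -- one-sided conical juntas (in particular one-sided unambiguous certificates)
    (∀ (n d m : ℕ) (f : (Fin n → ℤˣ) → ℤˣ) (w : Fin m → ℝ) (A B : Fin m → Finset (Fin n)),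
      (∀ j, 0 ≤ w j) → (∀ j, Disjoint (A j) (B j)) → (∀ j, (A j).card + (B j).card ≤ d) →
      (∀ x, (1 + ((f x : ℤ) : ℝ)) / 2 = ∑ j, w j * cubeInd (A j) (B j) x) →
      ∑ i, fhat (fun x => ((f x : ℤ) : ℝ)) {i} ≤ 2 * Real.exp (-(1 / 2)) * √(d : ℝ)) ∧
    -- (fractional) partitions of the cube into subcubes: the strong form holds
    (∀ (n d m : ℕ) (f : (Fin n → ℤˣ) → ℤˣ) (w s : Fin m → ℝ) (A B : Fin m → Finset (Fin n)),
      (∀ j, 0 ≤ w j) → (∀ j, |s j| ≤ 1) → (∀ j, Disjoint (A j) (B j)) →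
      (∀ j, (A j).card + (B j).card ≤ d) →
      (∀ x, ∑ j, w j * cubeInd (A j) (B j) x = 1) →
      (∀ x, ((f x : ℤ) : ℝ) = ∑ j, (w j * s j) * cubeInd (A j) (B j) x) →
      ∑ i, fhat (fun x => ((f x : ℤ) : ℝ)) {i} ≤ √(d : ℝ)) := by
  refine ⟨fun d e he => M_mul_le he, fun d₀ h1 h2 => dichotomy h1 h2, weak_iff_strong,
    ⟨M_five, fun c hc => M_asymp hc⟩, ⟨fun d h1 h2 => M_odd_le h1 h2, fun d h => M_le_all h⟩, ?_, ?_⟩
  · intro n d m f w A B hw hAB hd h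
    exact one_sided (f := fun x => ((f x : ℤ) : ℝ)) (fun x => by
      rcases Int.units_eq_one_or (f x) with h' | h' <;> rw [h'] <;> norm_num) w hw A B hAB hd h
  · intro n d m f w s A B hw hs hAB hd h1 h
    exact two_sided (f := fun x => ((f x : ℤ) : ℝ)) w s hw hs A B hAB hd h1 h

end Vale.Agent.Results.P047.Bounds
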